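import Vale.Agent.P286.H527.BrFin

/-!
# Quantum geometric Langlands for the projective line and the groups of type `A`

For `n ≥ 2`, `d ∣ n` let `G = SL_n/μ_d`, with Langlands dual group `G^∨ = SL_n/μ_{n/d}`, dual Coxeter
number `h^∨ = n` and lacing number `r = 1`.  For all irrational `c` the DG categories
`D_c(Bun_G(ℙ¹))` and `D_{-1/c}(Bun_{G^∨}(ℙ¹))` are equivalent; both are equivalent to the DG
category of `D`-modules on `BSL_n`.
-/

namespace Vale.Agent.Results.P286.GenusZeroTypeA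

open Vale.Agent.P286.St

/-- The stack `Bun_{SL_n/μ_d}(ℙ¹)` with its canonical bundle `ω` and the twist
`(h^∨ - c)/(2 h^∨)`, `h^∨ = n`. -/
noncomputable def DBun (n d : ℕ) (c : ℂ) : TSite := Bun n d (((n : ℂ) - c) / (2 * n))

/-- Quantum geometric Langlands on the projective line at irrational level, for the groups
`SL_n/μ_d`. -/
theorem result : ∀ (n : ℕ), 2 ≤ n → ∀ (d : ℕ), d ∣ n → ∀ c : ℂ, (∀ q : ℚ, c ≠ (q : ℂ)) →
    DGEquivalent (DBun n d c) (DBun n (n / d) (-1 / c)) ∧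
    DGEquivalent (DBun n d c) (BSL n) ∧
    ∃ K : Cx (DBun n d c), K.Cart ∧ ¬ K.Acyclic := by
  intro n hn d hd c hc
  have hn0 : 0 < n := by omega
  have h1 : DGEquivalent (DBun n d c) (BSL n) := Vale.Agent.P286.Br.main hn0 hd hc
  have h2 : DGEquivalent (DBun n (n / d) (-1 / c)) (BSL n) :=
    Vale.Agent.P286.Br.main hn0 (Nat.div_dvd_of_dvd hd) (Vale.Agent.P286.irrational_inv hc)
  exact ⟨h1.trans _ _ _ (h2.symm _ _), h1, Vale.Agent.P286.Br.nonzero_Bun hn0 hd _⟩

end Vale.Agent.Results.P286.GenusZeroTypeA
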